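import Vale.Agent.P006.DEC.Cond

/-!
# P006: arithmetic of the cubic conductor `cond`
-/

namespace Vale.Agent.P006.DEC

open Finset

/-- building a decomposition from a factorisation with arbitrary nonzero cube part -/
theorem IsDec.mul_cube {k u a b c n : O} {j : ℕ} (h : IsDec k u j a b c) (hn : n ≠ 0) :
    ∃ v i m, IsDec (k * n ^ 3) (u * v) (j + 3 * i) a b (c * m) := by
  obtain ⟨i, x, hx, he⟩ := WfDvdMonoid.max_power_factor hn prime_lam.irreducible
  obtain ⟨w, hw, hp⟩ := exists_unit_mul_primary hx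
  obtain ⟨v, hv⟩ := hw.exists_right_inv
  have hvu : IsUnit v := IsUnit.of_mul_eq_one w (by rw [mul_comm]; exact hv)
  refine ⟨v ^ 3, i, w * x, h.unit.mul (hvu.pow 3), h.pa, h.pb, h.pc.mul hp, h.sq, ?_⟩
  have hn' : n = lam ^ i * (v * (w * x)) := by
    rw [he]; linear_combination (-(lam ^ i * x)) * hv
  rw [hn', h.eq]; ring

theorem IsDec.unit_mul {k u a b c v : O} {j : ℕ} (h : IsDec k u j a b c) (hv : IsUnit v) :
    IsDec (v * k) (v * u) j a b c :=
  ⟨hv.mul h.unit, h.pa, h.pb, h.pc, h.sq, by rw [h.eq]; ring⟩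

theorem IsDec.lam_mul {k u a b c : O} {j : ℕ} (h : IsDec k u j a b c) (i : ℕ) :
    IsDec (lam ^ i * k) u (i + j) a b c :=
  ⟨h.unit, h.pa, h.pb, h.pc, h.sq, by rw [h.eq]; ring⟩

theorem crad_mul_cube {k n : O} (hk : k ≠ 0) (hn : n ≠ 0) : crad (k * n ^ 3) = crad k := by
  obtain ⟨v, i, m, h⟩ := (isDec hk).mul_cube hn
  rw [h.crad_eq]; rfl

theorem cond_mul_cube {k n : O} (hk : k ≠ 0) (hn : n ≠ 0) : cond (k * n ^ 3) = cond k := by
  rw [cond, crad_mul_cube hk hn]; rfl

theorem crad_unit_mul {k v : O} (hk : k ≠ 0) (hv : IsUnit v) : crad (v * k) = crad k := by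
  rw [((isDec hk).unit_mul hv).crad_eq]; rfl

theorem cond_unit_mul {k v : O} (hk : k ≠ 0) (hv : IsUnit v) : cond (v * k) = cond k := by
  rw [cond, crad_unit_mul hk hv]; rfl

theorem crad_lam_mul {k : O} (hk : k ≠ 0) (i : ℕ) : crad (lam ^ i * k) = crad k := by
  rw [((isDec hk).lam_mul i).crad_eq]; rfl

theorem cond_lam_mul {k : O} (hk : k ≠ 0) (i : ℕ) : cond (lam ^ i * k) = cond k := by
  rw [cond, crad_lam_mul hk i]; rfl

/-- `k = a b²` with `a, b` primary, `a b` squarefree -/
theorem isDec_sq {a b : O} (ha : Primary a) (hb : Primary b) (h : Squarefree (a * b)) :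
    IsDec (a * b ^ 2) 1 0 a b 1 :=
  ⟨isUnit_one, ha, hb, primary_one, h, by ring⟩

theorem isDec_squarefree {a : O} (ha : Primary a) (h : Squarefree a) : IsDec a 1 0 a 1 1 :=
  ⟨isUnit_one, ha, primary_one, primary_one, by simpa using h, by ring⟩

theorem isDec_one : IsDec 1 1 0 1 1 1 := isDec_squarefree primary_one squarefree_one

theorem cond_one : cond 1 = 1 := by rw [isDec_one.cond_eq]; simp

theorem cond_squarefree {a : O} (ha : Primary a) (h : Squarefree a) : cond a = N a := by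
  rw [(isDec_squarefree ha h).cond_eq]; simp

theorem cond_mul_sq {a b : O} (ha : Primary a) (hb : Primary b) (h : Squarefree (a * b)) :
    cond (a * b ^ 2) = N a * N b := (isDec_sq ha hb h).cond_eq

theorem cond_cube {n : O} (hn : n ≠ 0) : cond (n ^ 3) = 1 := by
  have := cond_mul_cube (k := 1) one_ne_zero hn
  rwa [one_mul, cond_one] at this

theorem cond_eq_one_iff {k : O} (hk : k ≠ 0) :
    cond k = 1 ↔ ∃ (u : O) (j : ℕ) (c : O), IsUnit u ∧ Primary c ∧ k = u * lam ^ j * c ^ 3 := by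
  constructor
  · intro h
    have h1 : N (d1 k) = 1 ∧ N (d2 k) = 1 := by
      rw [cond_eq] at h; exact mul_eq_one.1 h
    have e1 := (primary_d1 k).eq_one (isUnit_iff_N.2 h1.1)
    have e2 := (primary_d2 k).eq_one (isUnit_iff_N.2 h1.2)
    refine ⟨du k, dj k, d3 k, unit_du k, primary_d3 k, ?_⟩
    conv_lhs => rw [dec_eq hk, e1, e2]
    ring
  · rintro ⟨u, j, c, hu, hc, rfl⟩
    have : IsDec (u * lam ^ j * c ^ 3) u j 1 1 c :=
      ⟨hu, primary_one, primary_one, hc, by simp, by ring⟩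
    rw [this.cond_eq]; simp

/-- a unit is a cube iff it is `±1` -/
theorem unit_cube {v : O} (hv : IsUnit v) : v ^ 3 = 1 ∨ v ^ 3 = -1 := by
  rcases isUnit_cases hv with h | h | h | h | h | h <;> subst h
  all_goals first | (left; decide) | (right; decide)

theorem isCube_iff {k : O} (hk : k ≠ 0) :
    (∃ n : O, k = n ^ 3) ↔ cond k = 1 ∧ 3 ∣ dj k ∧ (du k = 1 ∨ du k = -1) := by
  constructor
  · rintro ⟨n, rfl⟩
    have hn : n ≠ 0 := by rintro rfl; simp at hk
    refine ⟨cond_cube hn, ?_⟩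
    obtain ⟨i, x, hx, he⟩ := WfDvdMonoid.max_power_factor hn prime_lam.irreducible
    obtain ⟨w, hw, hp⟩ := exists_unit_mul_primary hx
    obtain ⟨v, hv⟩ := hw.exists_right_inv
    have hvu : IsUnit v := IsUnit.of_mul_eq_one w (by rw [mul_comm]; exact hv)
    have hn' : n = lam ^ i * (v * (w * x)) := by
      rw [he]; linear_combination (-(lam ^ i * x)) * hv
    have hd : IsDec (n ^ 3) (v ^ 3) (3 * i) 1 1 (w * x) :=
      ⟨hvu.pow 3, primary_one, primary_one, hp, by simp, by rw [hn']; ring⟩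
    obtain ⟨h1, h2, -⟩ := hd.dec_eq
    rw [h1, h2]
    exact ⟨dvd_mul_right 3 i, unit_cube hvu⟩
  · rintro ⟨h1, ⟨i, h2⟩, h3⟩
    have h1' : N (d1 k) = 1 ∧ N (d2 k) = 1 := by
      rw [cond_eq] at h1; exact mul_eq_one.1 h1
    have e1 := (primary_d1 k).eq_one (isUnit_iff_N.2 h1'.1)
    have e2 := (primary_d2 k).eq_one (isUnit_iff_N.2 h1'.2)
    refine ⟨du k * (lam ^ i * d3 k), ?_⟩
    have h4 : du k ^ 3 = du k := by
      rcases h3 with h | h <;> rw [h] <;> ring
    conv_lhs => rw [dec_eq hk, e1, e2, h2]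
    rw [mul_pow, h4]; ring

/-! ### multiplicities -/

theorem mult_dec {k p : O} (hk : k ≠ 0) (hp : Prime p) (hl : ¬ Associated p lam) :
    multiplicity p k = multiplicity p (d1 k) + 2 * multiplicity p (d2 k) +
      3 * multiplicity p (d3 k) := by
  have h0 := prime_lam.ne_zero
  have a0 := (primary_d1 k).ne_zero
  have b0 := (primary_d2 k).ne_zero
  have c0 := (primary_d3 k).ne_zero
  have hl' : multiplicity p lam = 0 := mult_eq_zero fun h => hl (hp.associated_of_dvd prime_lam h)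
  conv_lhs => rw [dec_eq hk]
  rw [mult_mul hp (mul_ne_zero (unit_du k).ne_zero (pow_ne_zero _ h0))
      (mul_ne_zero (mul_ne_zero a0 (pow_ne_zero _ b0)) (pow_ne_zero _ c0)),
    mult_mul hp (unit_du k).ne_zero (pow_ne_zero _ h0), mult_unit hp (unit_du k),
    mult_pow hp h0, hl', mult_mul hp (mul_ne_zero a0 (pow_ne_zero _ b0)) (pow_ne_zero _ c0),
    mult_mul hp a0 (pow_ne_zero _ b0), mult_pow hp b0, mult_pow hp c0]
  ring

theorem mult_crad_add (k p : O) (hp : Prime p) :
    multiplicity p (crad k) = multiplicity p (d1 k) + multiplicity p (d2 k) :=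
  mult_mul hp (primary_d1 k).ne_zero (primary_d2 k).ne_zero

theorem mult_crad_le (k p : O) (hp : Prime p) : multiplicity p (crad k) ≤ 1 :=
  mult_squarefree hp (squarefree_crad k)

theorem not_associated_of_dvd_primary {p x : O} (hx : Primary x) (h : p ∣ x) :
    ¬ Associated p lam := fun ha => hx.not_lam_dvd (ha.symm.dvd.trans h)

theorem prime_dvd_iff_mult {p x : O} (_hp : Prime p) (_hx : x ≠ 0) :
    p ∣ x ↔ multiplicity p x ≠ 0 := by
  rw [Ne, multiplicity_eq_zero, not_not]

/-- `p ∣ crad k` iff the exponent of `p` in `k` is not divisible by three -/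
theorem dvd_crad_iff {k p : O} (hk : k ≠ 0) (hp : Prime p) (hl : ¬ Associated p lam) :
    p ∣ crad k ↔ ¬ 3 ∣ multiplicity p k := by
  rw [prime_dvd_iff_mult hp (primary_crad k).ne_zero, mult_dec hk hp hl, mult_crad_add k p hp]
  have := mult_crad_le k p hp
  rw [mult_crad_add k p hp] at this
  omega

/-- a squarefree element divides `y` as soon as its prime divisors do -/
theorem dvd_of_prime_dvd {x y : O} (hx : Squarefree x) (hy : y ≠ 0)
    (h : ∀ p, Prime p → p ∣ x → p ∣ y) : x ∣ y := by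
  apply dvd_of_mult hx.ne_zero hy
  intro p hp
  by_cases hpx : p ∣ x
  · have h1 := mult_squarefree hp hx
    have h2 := (prime_dvd_iff_mult hp hy).1 (h p hp hpx)
    omega
  · rw [mult_eq_zero hpx]; exact Nat.zero_le _

theorem crad_mul_dvd {k l : O} (hk : k ≠ 0) (hl : l ≠ 0) : crad (k * l) ∣ crad k * crad l := by
  apply dvd_of_prime_dvd (squarefree_crad _)
    (mul_ne_zero (primary_crad k).ne_zero (primary_crad l).ne_zero)
  intro p hp hpd
  have hpl := not_associated_of_dvd_primary (primary_crad _) hpd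
  rw [dvd_crad_iff (mul_ne_zero hk hl) hp hpl, mult_mul hp hk hl] at hpd
  by_cases h1 : p ∣ crad k
  · exact h1.mul_right _
  · have h2 : p ∣ crad l := by
      rw [dvd_crad_iff hk hp hpl, not_not] at h1
      rw [dvd_crad_iff hl hp hpl]
      omega
    exact h2.mul_left _

theorem cond_mul_dvd {k l : O} (hk : k ≠ 0) (hl : l ≠ 0) : cond (k * l) ∣ cond k * cond l := by
  have := N_dvd_N (crad_mul_dvd hk hl)
  rwa [N_mul] at this

theorem cond_mul_le {k l : O} (hk : k ≠ 0) (hl : l ≠ 0) : cond (k * l) ≤ cond k * cond l :=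
  Nat.le_of_dvd (Nat.mul_pos (cond_pos k) (cond_pos l)) (cond_mul_dvd hk hl)

theorem crad_eq_of_dvd_iff {k l : O}
    (h : ∀ p, Prime p → ¬ Associated p lam → (p ∣ crad k ↔ p ∣ crad l)) : crad k = crad l := by
  apply Vale.Agent.P006.Primary.eq_of_associated (primary_crad k) (primary_crad l)
  apply associated_of_dvd_dvd
  · exact dvd_of_prime_dvd (squarefree_crad k) (primary_crad l).ne_zero fun p hp hd =>
      (h p hp (not_associated_of_dvd_primary (primary_crad k) hd)).1 hd
  · exact dvd_of_prime_dvd (squarefree_crad l) (primary_crad k).ne_zero fun p hp hd =>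
      (h p hp (not_associated_of_dvd_primary (primary_crad l) hd)).2 hd

theorem crad_sq {k : O} (hk : k ≠ 0) : crad (k ^ 2) = crad k := by
  apply crad_eq_of_dvd_iff
  intro p hp hl
  rw [dvd_crad_iff (pow_ne_zero 2 hk) hp hl, dvd_crad_iff hk hp hl, mult_pow hp hk]
  omega

theorem cond_sq {k : O} (hk : k ≠ 0) : cond (k ^ 2) = cond k := by rw [cond, crad_sq hk]; rfl

theorem crad_mul {k l : O} (hk : k ≠ 0) (hl : l ≠ 0) (h : IsCoprime k l) :
    crad (k * l) = crad k * crad l := by
  have hc : IsCoprime (crad k) (crad l) :=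
    (h.of_isCoprime_of_dvd_left (crad_dvd hk)).of_isCoprime_of_dvd_right (crad_dvd hl)
  have hsq : Squarefree (crad k * crad l) :=
    squarefree_mul_iff.2 ⟨hc.isRelPrime, squarefree_crad k, squarefree_crad l⟩
  apply Vale.Agent.P006.Primary.eq_of_associated (primary_crad _)
    ((primary_crad k).mul (primary_crad l))
  apply associated_of_dvd_dvd (crad_mul_dvd hk hl)
  apply dvd_of_prime_dvd hsq (primary_crad _).ne_zero
  intro p hp hd
  have hpl := not_associated_of_dvd_primary ((primary_crad k).mul (primary_crad l)) hd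
  rw [dvd_crad_iff (mul_ne_zero hk hl) hp hpl, mult_mul hp hk hl]
  rcases hp.dvd_or_dvd hd with h1 | h1
  · have h2 : multiplicity p l = 0 := mult_eq_zero fun h3 =>
      hp.not_isUnit (h.isUnit_of_dvd' (h1.trans (crad_dvd hk)) h3)
    rw [dvd_crad_iff hk hp hpl] at h1
    omega
  · have h2 : multiplicity p k = 0 := mult_eq_zero fun h3 =>
      hp.not_isUnit (h.isUnit_of_dvd' h3 (h1.trans (crad_dvd hl)))
    rw [dvd_crad_iff hl hp hpl] at h1
    omega

theorem cond_mul {k l : O} (hk : k ≠ 0) (hl : l ≠ 0) (h : IsCoprime k l) :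
    cond (k * l) = cond k * cond l := by
  rw [cond, crad_mul hk hl h, N_mul]; rfl

end Vale.Agent.P006.DEC
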