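import Vale.Agent.P006.DEC.Uniq

/-!
# P006: the canonical decomposition `k = u λ^j k₁ k₂² k₃³` and the cubic conductor `cond k`

For `k ≠ 0`: `k = du k * lam ^ dj k * (d1 k * d2 k ^ 2 * d3 k ^ 3)` with `du k` a unit,
`d1 k, d2 k, d3 k` primary and `d1 k * d2 k` squarefree; this determines everything.
`crad k = d1 k * d2 k` and `cond k = N (crad k)`.
-/

namespace Vale.Agent.P006.DEC

open Finset

/-- `k = u λ^j a b² c³` is the canonical decomposition of `k` -/
structure IsDec (k u : O) (j : ℕ) (a b c : O) : Prop where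
  unit : IsUnit u
  pa : Primary a
  pb : Primary b
  pc : Primary c
  sq : Squarefree (a * b)
  eq : k = u * lam ^ j * (a * b ^ 2 * c ^ 3)

theorem exists_isDec {k : O} (hk : k ≠ 0) : ∃ x : O × ℕ × O × O × O,
    IsDec k x.1 x.2.1 x.2.2.1 x.2.2.2.1 x.2.2.2.2 := by
  obtain ⟨u, j, a, b, c, h1, h2, h3, h4, h5, h6⟩ := exists_dec k hk
  exact ⟨(u, j, a, b, c), h1, h2, h3, h4, h5, h6⟩

theorem IsDec.unique {k u u' a b c a' b' c' : O} {j j' : ℕ} (h : IsDec k u j a b c)
    (h' : IsDec k u' j' a' b' c') : u = u' ∧ j = j' ∧ a = a' ∧ b = b' ∧ c = c' :=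
  unique_dec h.unit h'.unit h.pa h.pb h.pc h.sq h'.pa h'.pb h'.pc h'.sq (h.eq ▸ h'.eq)

open Classical in
/-- the five components (junk value `(1, 0, 1, 1, 1)` at `k = 0`) -/
noncomputable def dec (k : O) : O × ℕ × O × O × O :=
  if hk : k ≠ 0 then (exists_isDec hk).choose else (1, 0, 1, 1, 1)

/-- the unit of the decomposition -/
noncomputable def du (k : O) : O := (dec k).1
/-- the exponent of `λ` -/
noncomputable def dj (k : O) : ℕ := (dec k).2.1
/-- the component `k₁` -/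
noncomputable def d1 (k : O) : O := (dec k).2.2.1
/-- the component `k₂` -/
noncomputable def d2 (k : O) : O := (dec k).2.2.2.1
/-- the component `k₃` -/
noncomputable def d3 (k : O) : O := (dec k).2.2.2.2
/-- `k₁ k₂` : the product of the primary primes whose exponent in `k` is not divisible by 3 -/
noncomputable def crad (k : O) : O := d1 k * d2 k
/-- the cubic conductor (prime to 3) of `k` : `N(k₁ k₂)` -/
noncomputable def cond (k : O) : ℕ := N (crad k)

theorem isDec {k : O} (hk : k ≠ 0) : IsDec k (du k) (dj k) (d1 k) (d2 k) (d3 k) := by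
  have h : dec k = (exists_isDec hk).choose := by rw [dec, dif_pos hk]
  unfold du dj d1 d2 d3
  rw [h]
  exact (exists_isDec hk).choose_spec

theorem dec_zero : dec 0 = (1, 0, 1, 1, 1) := by simp [dec]

theorem IsDec.ne_zero {k u a b c : O} {j : ℕ} (h : IsDec k u j a b c) : k ≠ 0 := by
  rw [h.eq]
  exact mul_ne_zero (mul_ne_zero h.unit.ne_zero (pow_ne_zero _ prime_lam.ne_zero))
    (mul_ne_zero (mul_ne_zero h.pa.ne_zero (pow_ne_zero _ h.pb.ne_zero))
      (pow_ne_zero _ h.pc.ne_zero))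

theorem IsDec.dec_eq {k u a b c : O} {j : ℕ} (h : IsDec k u j a b c) :
    du k = u ∧ dj k = j ∧ d1 k = a ∧ d2 k = b ∧ d3 k = c :=
  (isDec h.ne_zero).unique h

theorem IsDec.crad_eq {k u a b c : O} {j : ℕ} (h : IsDec k u j a b c) : crad k = a * b := by
  obtain ⟨-, -, h1, h2, -⟩ := h.dec_eq
  rw [crad, h1, h2]

theorem IsDec.cond_eq {k u a b c : O} {j : ℕ} (h : IsDec k u j a b c) :
    cond k = N a * N b := by
  rw [cond, h.crad_eq, N_mul]

theorem IsDec.coprime {k u a b c : O} {j : ℕ} (h : IsDec k u j a b c) : IsCoprime a b :=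
  (squarefree_mul_iff.1 h.sq).1.isCoprime

theorem IsDec.sqa {k u a b c : O} {j : ℕ} (h : IsDec k u j a b c) : Squarefree a :=
  h.sq.squarefree_of_dvd (dvd_mul_right a b)

theorem IsDec.sqb {k u a b c : O} {j : ℕ} (h : IsDec k u j a b c) : Squarefree b :=
  h.sq.squarefree_of_dvd (dvd_mul_left b a)

theorem IsDec.N_eq {k u a b c : O} {j : ℕ} (h : IsDec k u j a b c) :
    N k = 3 ^ j * (N a * N b ^ 2 * N c ^ 3) := by
  have : N u = 1 := isUnit_iff_N.1 h.unit
  rw [h.eq]; simp [this]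

/-! ### the components for all `k` -/

theorem unit_du (k : O) : IsUnit (du k) := by
  by_cases hk : k = 0
  · subst hk; simp [du, dec_zero]
  · exact (isDec hk).unit

theorem primary_d1 (k : O) : Primary (d1 k) := by
  by_cases hk : k = 0
  · subst hk; simp [d1, dec_zero, primary_one]
  · exact (isDec hk).pa

theorem primary_d2 (k : O) : Primary (d2 k) := by
  by_cases hk : k = 0
  · subst hk; simp [d2, dec_zero, primary_one]
  · exact (isDec hk).pb

theorem primary_d3 (k : O) : Primary (d3 k) := by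
  by_cases hk : k = 0
  · subst hk; simp [d3, dec_zero, primary_one]
  · exact (isDec hk).pc

theorem squarefree_crad (k : O) : Squarefree (crad k) := by
  by_cases hk : k = 0
  · subst hk; simp [crad, d1, d2, dec_zero]
  · exact (isDec hk).sq

theorem primary_crad (k : O) : Primary (crad k) := (primary_d1 k).mul (primary_d2 k)

theorem squarefree_d1 (k : O) : Squarefree (d1 k) :=
  (squarefree_crad k).squarefree_of_dvd (dvd_mul_right _ _)

theorem squarefree_d2 (k : O) : Squarefree (d2 k) :=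
  (squarefree_crad k).squarefree_of_dvd (dvd_mul_left _ _)

theorem coprime_d1_d2 (k : O) : IsCoprime (d1 k) (d2 k) :=
  (squarefree_mul_iff.1 (squarefree_crad k)).1.isCoprime

theorem dec_eq {k : O} (hk : k ≠ 0) :
    k = du k * lam ^ dj k * (d1 k * d2 k ^ 2 * d3 k ^ 3) := (isDec hk).eq

theorem N_dec {k : O} (hk : k ≠ 0) :
    N k = 3 ^ dj k * (N (d1 k) * N (d2 k) ^ 2 * N (d3 k) ^ 3) := (isDec hk).N_eq

theorem cond_eq (k : O) : cond k = N (d1 k) * N (d2 k) := by rw [cond, crad, N_mul]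

theorem cond_pos (k : O) : 0 < cond k := N_pos (primary_crad k).ne_zero

theorem crad_dvd {k : O} (hk : k ≠ 0) : crad k ∣ k := by
  refine ⟨du k * lam ^ dj k * (d2 k * d3 k ^ 3), ?_⟩
  conv_lhs => rw [dec_eq hk]
  rw [crad]; ring

theorem cond_dvd {k : O} (hk : k ≠ 0) : cond k ∣ N k := N_dvd_N (crad_dvd hk)

theorem cond_le {k : O} (hk : k ≠ 0) : cond k ≤ N k := Nat.le_of_dvd (N_pos hk) (cond_dvd hk)

theorem d1_dvd {k : O} (hk : k ≠ 0) : d1 k ∣ k := (dvd_mul_right _ _).trans (crad_dvd hk)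

theorem d2_sq_dvd {k : O} (hk : k ≠ 0) : d2 k ^ 2 ∣ k := by
  refine ⟨du k * lam ^ dj k * (d1 k * d3 k ^ 3), ?_⟩
  conv_lhs => rw [dec_eq hk]
  ring

theorem d3_cube_dvd {k : O} (hk : k ≠ 0) : d3 k ^ 3 ∣ k := by
  refine ⟨du k * lam ^ dj k * (d1 k * d2 k ^ 2), ?_⟩
  conv_lhs => rw [dec_eq hk]
  ring

theorem lam_pow_dvd {k : O} (hk : k ≠ 0) : lam ^ dj k ∣ k := by
  refine ⟨du k * (d1 k * d2 k ^ 2 * d3 k ^ 3), ?_⟩
  conv_lhs => rw [dec_eq hk]
  ring

theorem N_d1_le {k : O} (hk : k ≠ 0) : N (d1 k) ≤ N k :=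
  Nat.le_of_dvd (N_pos hk) (N_dvd_N (d1_dvd hk))

theorem N_d2_sq_le {k : O} (hk : k ≠ 0) : N (d2 k) ^ 2 ≤ N k := by
  rw [← N_pow]; exact Nat.le_of_dvd (N_pos hk) (N_dvd_N (d2_sq_dvd hk))

theorem N_d3_cube_le {k : O} (hk : k ≠ 0) : N (d3 k) ^ 3 ≤ N k := by
  rw [← N_pow]; exact Nat.le_of_dvd (N_pos hk) (N_dvd_N (d3_cube_dvd hk))

theorem three_pow_le {k : O} (hk : k ≠ 0) : 3 ^ dj k ≤ N k := by
  have h := Nat.le_of_dvd (N_pos hk) (N_dvd_N (lam_pow_dvd hk))
  simpa using h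

theorem dj_lt {k : O} (hk : k ≠ 0) : dj k < N k :=
  lt_of_lt_of_le (Nat.lt_pow_self (by norm_num)) (three_pow_le hk)

/-! ### the symbol -/

theorem sym_cube_eq (c n : O) [Decidable (IsCoprime c n)] :
    sym c n ^ 3 = if IsCoprime c n then 1 else 0 := by
  split_ifs with h
  · exact sym_cube h
  · rw [sym_eq_zero.2 h]; ring

theorem sym_dec {k : O} (hk : k ≠ 0) (n : O) :
    sym k n = sym (du k) n * sym lam n ^ dj k *
      (sym (d1 k) n * sym (d2 k) n ^ 2 * sym (d3 k) n ^ 3) := by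
  conv_lhs => rw [dec_eq hk]
  simp only [sym_mul_left, sym_pow_left]

theorem sym_dec_coprime {k : O} (hk : k ≠ 0) {n : O} (h : IsCoprime (d3 k) n) :
    sym k n = sym (du k) n * sym lam n ^ dj k * (sym (d1 k) n * sym (d2 k) n ^ 2) := by
  rw [sym_dec hk, sym_cube h, mul_one]

/-- `(k/n) = (u/n) (λ/n)^j (n/k₁) (n/k₂)²` for primary `n` prime to `k₃` -/
theorem sym_dec_recip {k : O} (hk : k ≠ 0) {n : O} (hn : Primary n) (h : IsCoprime (d3 k) n) :
    sym k n = sym (du k) n * sym lam n ^ dj k * (sym n (d1 k) * sym n (d2 k) ^ 2) := by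
  rw [sym_dec_coprime hk h, recip (primary_d1 k) hn, recip (primary_d2 k) hn]

open Classical in
theorem sym_dec_recip' {k : O} (hk : k ≠ 0) {n : O} (hn : Primary n) :
    sym k n = (if IsCoprime (d3 k) n then 1 else 0) *
      (sym (du k) n * sym lam n ^ dj k * (sym n (d1 k) * sym n (d2 k) ^ 2)) := by
  rw [sym_dec hk, sym_cube_eq, recip (primary_d1 k) hn, recip (primary_d2 k) hn]
  ring

/-- periodicity modulo `9 k₁ k₂` -/
theorem sym_periodic_crad {k : O} (hk : k ≠ 0) {n n' : O} (hn : Primary n)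
    (h : IsCoprime (d3 k) n) (h' : IsCoprime (d3 k) n') (hd : 9 * crad k ∣ n - n') :
    sym k n = sym k n' := by
  have h9 : (9 : O) ∣ n - n' := (dvd_mul_right _ _).trans hd
  have hc : crad k ∣ n - n' := (dvd_mul_left _ _).trans hd
  have hn' : Primary n' := by
    have h3 : (3 : O) ∣ n - n' := (Dvd.intro 3 (by norm_num : (3 : O) * 3 = 9)).trans h9
    have : n' - 1 = (n - 1) - (n - n') := by ring
    unfold Primary at *
    rw [this]; exact dvd_sub hn h3
  rw [sym_dec_recip hk hn h, sym_dec_recip hk hn' h',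
    sym_unit_left_congr (unit_du k) hn h9, sym_lam_congr hn h9,
    sym_periodic ((dvd_mul_right (d1 k) (d2 k)).trans hc),
    sym_periodic ((dvd_mul_left (d2 k) (d1 k)).trans hc)]

end Vale.Agent.P006.DEC
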