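import Vale.Agent.P006.DEC.Sum

/-!
# P006: the number of `k`, `0 < N k ≤ X`, of cubic conductor `cond k ≤ Q`
-/

namespace Vale.Agent.P006.DEC

open Finset

theorem sum_le_tsum_N {s : ℝ} (hs : 1 < s) (S : Finset O) :
    ∑ z ∈ S, (N z : ℝ) ^ (-s) ≤ ∑' z : O, (N z : ℝ) ^ (-s) :=
  (HB.summable_N_rpow hs).sum_le_tsum _ fun z _ => by positivity

theorem tsum_N_nonneg (s : ℝ) : 0 ≤ ∑' z : O, (N z : ℝ) ^ (-s) :=
  tsum_nonneg fun z => by positivity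

open Classical in
/-- one fibre -/
theorem sum_c_le {X : ℝ} (hX : 0 ≤ X) {T : ℝ} (hT : 0 < T) :
    ∑ c ∈ PB X, (if T * (N c : ℝ) ^ 3 ≤ X then (1 : ℝ) else 0) ≤ 4 * (X / T) ^ (1 / 3 : ℝ) := by
  rw [← sum_filter, sum_const, nsmul_eq_mul, mul_one]
  have h1 : (PB X).filter (fun c => T * (N c : ℝ) ^ 3 ≤ X) ⊆ PB ((X / T) ^ (1 / 3 : ℝ)) := by
    intro c hc
    rw [mem_filter, mem_PB] at hc
    rw [mem_PB]
    refine ⟨hc.1.1, ?_⟩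
    have h2 : (N c : ℝ) ^ 3 ≤ X / T := by
      rw [le_div_iff₀ hT]; linarith [hc.2]
    have h3 : ((N c : ℝ) ^ 3) ^ (1 / 3 : ℝ) = N c := by
      rw [← Real.rpow_natCast, ← Real.rpow_mul (by positivity)]; norm_num
    rw [← h3]
    exact Real.rpow_le_rpow (by positivity) h2 (by norm_num)
  calc (((PB X).filter (fun c => T * (N c : ℝ) ^ 3 ≤ X)).card : ℝ)
      ≤ ((PB ((X / T) ^ (1 / 3 : ℝ))).card : ℝ) := by exact_mod_cast card_le_card h1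
    _ ≤ 4 * (X / T) ^ (1 / 3 : ℝ) := card_PB_le (by positivity)

theorem rankin_identity {ε X Q : ℝ} (hX : 0 ≤ X) (hQ : 0 ≤ Q) (j : ℕ) {x y : ℝ}
    (pa : 0 < x) (pb : 0 < y) :
    4 * (X / ((3 : ℝ) ^ j * (x * y ^ 2))) ^ (1 / 3 : ℝ) * (Q / (x * y)) ^ (2 / 3 + ε) =
      4 * (X ^ (1 / 3 : ℝ) * Q ^ (2 / 3 + ε)) *
        (((3 : ℝ) ^ (-(1 / 3) : ℝ)) ^ j * (x ^ (-(1 + ε)) * y ^ (-(4 / 3 + ε)))) := by
  rw [Real.div_rpow hX (by positivity), Real.div_rpow hQ (by positivity),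
    Real.mul_rpow (by positivity) (by positivity),
    Real.mul_rpow (by positivity) (by positivity),
    Real.mul_rpow (by positivity) (by positivity)]
  have e1 : ((3 : ℝ) ^ j) ^ (1 / 3 : ℝ) = (((3 : ℝ) ^ (-(1 / 3) : ℝ)) ^ j)⁻¹ := by
    rw [← Real.rpow_natCast, ← Real.rpow_mul (by norm_num), ← Real.rpow_natCast,
      ← Real.rpow_mul (by norm_num), ← Real.rpow_neg (by norm_num)]
    congr 1; ring
  have e2 : (y ^ 2) ^ (1 / 3 : ℝ) = y ^ (2 / 3 : ℝ) := by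
    rw [← Real.rpow_natCast, ← Real.rpow_mul pb.le]; norm_num
  have e3 : x ^ (-(1 + ε)) = (x ^ (1 / 3 : ℝ) * x ^ (2 / 3 + ε))⁻¹ := by
    rw [← Real.rpow_add pa, ← Real.rpow_neg pa.le]; congr 1; ring
  have e4 : y ^ (-(4 / 3 + ε)) = (y ^ (2 / 3 : ℝ) * y ^ (2 / 3 + ε))⁻¹ := by
    rw [← Real.rpow_add pb, ← Real.rpow_neg pb.le]; congr 1; ring
  rw [e1, e2, e3, e4]
  have q1 : x ^ (1 / 3 : ℝ) ≠ 0 := by positivity
  have q2 : x ^ (2 / 3 + ε) ≠ 0 := by positivity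
  have q3 : y ^ (2 / 3 : ℝ) ≠ 0 := by positivity
  have q4 : y ^ (2 / 3 + ε) ≠ 0 := by positivity
  have q5 : ((3 : ℝ) ^ (-(1 / 3) : ℝ)) ^ j ≠ 0 := by positivity
  field_simp

open Classical in
theorem fibre_le {ε X Q : ℝ} (hε : 0 < ε) (hX : 0 ≤ X) (hQ : 0 ≤ Q) (j : ℕ) {a b : O}
    (ha : Primary a) (hb : Primary b) :
    ∑ c ∈ PB X, (if (Squarefree (a * b) ∧
        (3 : ℝ) ^ j * (N a * (N b : ℝ) ^ 2 * (N c : ℝ) ^ 3) ≤ X) ∧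
          (((N a * N b : ℕ) : ℝ) ≤ Q) then (1 : ℝ) else 0) ≤
      4 * (X ^ (1 / 3 : ℝ) * Q ^ (2 / 3 + ε)) * (((3 : ℝ) ^ (-(1 / 3) : ℝ)) ^ j *
        ((N a : ℝ) ^ (-(1 + ε)) * (N b : ℝ) ^ (-(4 / 3 + ε)))) := by
  have pa : (0 : ℝ) < N a := by exact_mod_cast N_pos ha.ne_zero
  have pb : (0 : ℝ) < N b := by exact_mod_cast N_pos hb.ne_zero
  by_cases hQ' : ((N a * N b : ℕ) : ℝ) ≤ Q
  · have hTpos : 0 < (3 : ℝ) ^ j * (N a * (N b : ℝ) ^ 2) := by positivity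
    refine le_trans (b := ∑ c ∈ PB X,
      (if (3 : ℝ) ^ j * (N a * (N b : ℝ) ^ 2) * (N c : ℝ) ^ 3 ≤ X then (1 : ℝ) else 0)) ?_ ?_
    · apply sum_le_sum
      intro c _
      split_ifs with h1 h2 h2
      · exact le_refl _
      · exact absurd (by linarith [h1.1.2]) h2
      · norm_num
      · exact le_refl _
    · refine (sum_c_le hX hTpos).trans ?_
      rw [← rankin_identity hX hQ j pa pb]
      have h1 : 1 ≤ Q / (N a * N b) := by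
        rw [one_le_div (by positivity)]; push_cast at hQ'; exact hQ'
      have h2 : 1 ≤ (Q / (N a * N b)) ^ (2 / 3 + ε) := Real.one_le_rpow h1 (by positivity)
      exact le_mul_of_one_le_right (by positivity) h2
  · have h0 : ∑ c ∈ PB X, (if (Squarefree (a * b) ∧
      (3 : ℝ) ^ j * (N a * (N b : ℝ) ^ 2 * (N c : ℝ) ^ 3) ≤ X) ∧
        (((N a * N b : ℕ) : ℝ) ≤ Q) then (1 : ℝ) else 0) = 0 := by
      apply sum_eq_zero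
      intro c _
      rw [if_neg (fun h => hQ' h.2)]
    rw [h0]; positivity

theorem factor_sum (X K r : ℝ) (n : ℕ) (A B : O → ℝ) :
    ∑ _u ∈ U6, ∑ j ∈ range n, ∑ a ∈ SPB X, ∑ b ∈ SPB X, K * (r ^ j * (A a * B b)) =
      6 * (K * ((∑ j ∈ range n, r ^ j) * ((∑ a ∈ SPB X, A a) * ∑ b ∈ SPB X, B b))) := by
  rw [sum_const, card_U6, nsmul_eq_mul]
  simp only [← mul_sum, ← sum_mul]
  norm_num

open Classical in
theorem card_cond_le {ε : ℝ} (hε : 0 < ε) : ∃ C : ℝ, 0 < C ∧ ∀ X Q : ℝ, 0 ≤ X → 0 ≤ Q →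
    ((((HB.Hn X).filter (fun k => (cond k : ℝ) ≤ Q)).card : ℕ) : ℝ) ≤
      C * Q ^ (2 / 3 + ε) * X ^ (1 / 3 : ℝ) := by
  set r : ℝ := (3 : ℝ) ^ (-(1 / 3) : ℝ) with hr
  have hr0 : 0 < r := by positivity
  have hr1 : r < 1 := Real.rpow_lt_one_of_one_lt_of_neg (by norm_num) (by norm_num)
  have hri : 0 < (1 - r)⁻¹ := inv_pos.2 (by linarith)
  set T1 : ℝ := ∑' z : O, (N z : ℝ) ^ (-(1 + ε)) with hT1
  set T2 : ℝ := ∑' z : O, (N z : ℝ) ^ (-(4 / 3 + ε)) with hT2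
  have hT1n : 0 ≤ T1 := tsum_N_nonneg _
  have hT2n : 0 ≤ T2 := tsum_N_nonneg _
  refine ⟨24 * ((1 - r)⁻¹ * (T1 * T2)) + 1, by positivity, fun X Q hX hQ => ?_⟩
  have h1 : ((((HB.Hn X).filter (fun k => (cond k : ℝ) ≤ Q)).card : ℕ) : ℝ) =
      ∑ k ∈ (HB.Hn X).filter (fun k => (cond k : ℝ) ≤ Q), (1 : ℝ) := by simp
  rw [h1, sum_Hn_cond X (fun q => (q : ℝ) ≤ Q)]
  have hgeom : ∑ j ∈ range (⌊X⌋₊ + 1), r ^ j ≤ (1 - r)⁻¹ := by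
    have h2 := (summable_geometric_of_lt_one hr0.le hr1).sum_le_tsum (range (⌊X⌋₊ + 1))
      (fun j _ => by positivity)
    rwa [tsum_geometric_of_lt_one hr0.le hr1] at h2
  have h3 := sum_le_tsum_N (s := 1 + ε) (by linarith) (SPB X)
  have h4 := sum_le_tsum_N (s := 4 / 3 + ε) (by linarith) (SPB X)
  refine le_trans (sum_le_sum fun u _ => sum_le_sum fun j _ => sum_le_sum fun a ha =>
    sum_le_sum fun b hb => fibre_le hε hX hQ j (mem_SPB.1 ha).1.1 (mem_SPB.1 hb).1.1) ?_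
  rw [factor_sum]
  have h5 : 0 ≤ X ^ (1 / 3 : ℝ) * Q ^ (2 / 3 + ε) := by positivity
  have h6 : (∑ j ∈ range (⌊X⌋₊ + 1), r ^ j) * ((∑ a ∈ SPB X, (N a : ℝ) ^ (-(1 + ε))) *
      ∑ b ∈ SPB X, (N b : ℝ) ^ (-(4 / 3 + ε))) ≤ (1 - r)⁻¹ * (T1 * T2) := by
    gcongr
  calc 6 * (4 * (X ^ (1 / 3 : ℝ) * Q ^ (2 / 3 + ε)) * ((∑ j ∈ range (⌊X⌋₊ + 1), r ^ j) *
        ((∑ a ∈ SPB X, (N a : ℝ) ^ (-(1 + ε))) * ∑ b ∈ SPB X, (N b : ℝ) ^ (-(4 / 3 + ε)))))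
      ≤ 6 * (4 * (X ^ (1 / 3 : ℝ) * Q ^ (2 / 3 + ε)) * ((1 - r)⁻¹ * (T1 * T2))) := by
        gcongr
    _ ≤ (24 * ((1 - r)⁻¹ * (T1 * T2)) + 1) * Q ^ (2 / 3 + ε) * X ^ (1 / 3 : ℝ) := by
        nlinarith

open Classical in
/-- the convenient special case `ε = 1/3` -/
theorem card_cond_le' : ∃ C : ℝ, 0 < C ∧ ∀ X Q : ℝ, 0 ≤ X → 0 ≤ Q →
    ((((HB.Hn X).filter (fun k => (cond k : ℝ) ≤ Q)).card : ℕ) : ℝ) ≤
      C * Q * X ^ (1 / 3 : ℝ) := by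
  obtain ⟨C, hC, h⟩ := card_cond_le (ε := 1 / 3) (by norm_num)
  refine ⟨C, hC, fun X Q hX hQ => ?_⟩
  have := h X Q hX hQ
  rwa [show (2 / 3 + 1 / 3 : ℝ) = 1 by norm_num, Real.rpow_one] at this

end Vale.Agent.P006.DEC
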