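import Mathlib
import Vale.Agent.P006.CR.Symbol

/-!
# P006: the decomposition `h = u λ^j h₁ h₂² h₃³`
-/

namespace Vale.Agent.P006.DEC

open Finset

/-- primary elements: `b = b₁ b₂² b₃³` with `b₁ b₂` squarefree, all primary -/
theorem exists_dec_primary : ∀ b : O, Primary b → ∃ b₁ b₂ b₃ : O, Primary b₁ ∧ Primary b₂ ∧
    Primary b₃ ∧ Squarefree (b₁ * b₂) ∧ b = b₁ * b₂ ^ 2 * b₃ ^ 3 := by
  apply Primary.induction
  · exact ⟨1, 1, 1, primary_one, primary_one, primary_one, by simp, by ring⟩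
  · rintro π b hπ hπp hb ⟨b₁, b₂, b₃, h1, h2, h3, hsq, rfl⟩
    by_cases hd1 : π ∣ b₁
    · obtain ⟨c, rfl⟩ := hd1
      have hc : Primary c := hπp.of_mul h1
      refine ⟨c, π * b₂, b₃, hc, hπp.mul h2, h3, ?_, by ring⟩
      have : c * (π * b₂) = π * c * b₂ := by ring
      rw [this]; exact hsq
    · by_cases hd2 : π ∣ b₂
      · obtain ⟨c, rfl⟩ := hd2
        have hc : Primary c := hπp.of_mul h2
        refine ⟨b₁, c, π * b₃, h1, hc, hπp.mul h3, ?_, by ring⟩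
        apply hsq.squarefree_of_dvd
        exact mul_dvd_mul_left b₁ (dvd_mul_left c π)
      · refine ⟨π * b₁, b₂, b₃, hπp.mul h1, h2, h3, ?_, by ring⟩
        rw [mul_assoc, squarefree_mul_iff]
        refine ⟨?_, hπ.irreducible.squarefree, hsq⟩
        apply IsCoprime.isRelPrime
        rw [hπ.coprime_iff_not_dvd]
        intro hd
        rcases hπ.dvd_or_dvd hd with h | h
        · exact hd1 h
        · exact hd2 h

/-- every `h ≠ 0` is `u λ^j h₁ h₂² h₃³` -/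
theorem exists_dec (h : O) (hh : h ≠ 0) : ∃ (u : O) (j : ℕ) (h₁ h₂ h₃ : O), IsUnit u ∧
    Primary h₁ ∧ Primary h₂ ∧ Primary h₃ ∧ Squarefree (h₁ * h₂) ∧
    h = u * lam ^ j * (h₁ * h₂ ^ 2 * h₃ ^ 3) := by
  obtain ⟨j, c, hc, rfl⟩ : ∃ (j : ℕ) (c : O), ¬ lam ∣ c ∧ h = lam ^ j * c := by
    obtain ⟨j, c, hc, he⟩ := WfDvdMonoid.max_power_factor hh prime_lam.irreducible
    exact ⟨j, c, hc, he⟩
  obtain ⟨u, hu, hp⟩ := exists_unit_mul_primary hc
  obtain ⟨h₁, h₂, h₃, e1, e2, e3, e4, e5⟩ := exists_dec_primary _ hp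
  obtain ⟨v, hv⟩ := hu.exists_right_inv
  refine ⟨v, j, h₁, h₂, h₃, IsUnit.of_mul_eq_one u (by rw [mul_comm]; exact hv), e1, e2, e3, e4, ?_⟩
  rw [← e5]
  linear_combination (-(lam ^ j * c)) * hv

end Vale.Agent.P006.DEC
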