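import Vale.Agent.P006.DEC.Arith
import Vale.Agent.P006.H845.Order
import Vale.Agent.P006.H357.Base

/-!
# P006: sums over `k ∈ O`, `0 < N k ≤ X`, parametrised by `k = u λ^j a b² c³`; counting by `cond`
-/

namespace Vale.Agent.P006.DEC

open Finset

/-- the six units of `O` -/
def U6 : Finset O := {1, -1, om, -om, om ^ 2, -om ^ 2}

theorem mem_U6 {u : O} : u ∈ U6 ↔ IsUnit u := by
  constructor
  · intro h
    simp only [U6, mem_insert, mem_singleton] at h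
    rw [isUnit_iff_N]
    rcases h with h | h | h | h | h | h <;> subst h <;> decide
  · intro h
    simp only [U6, mem_insert, mem_singleton]
    rcases isUnit_cases h with h | h | h | h | h | h <;> simp [h]

theorem card_U6 : U6.card = 6 := by decide

/-- the index type of the decomposition: `(u, j, a, b, c)` -/
abbrev Q5 : Type := O × ℕ × O × O × O

/-- `(u, j, a, b, c) ↦ u λ^j a b² c³` -/
def val (x : Q5) : O := x.1 * lam ^ x.2.1 * (x.2.2.1 * x.2.2.2.1 ^ 2 * x.2.2.2.2 ^ 3)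

open Classical in
/-- index set for `{k : 0 < N k ≤ X}` -/
noncomputable def idx (X : ℝ) : Finset Q5 :=
  (U6 ×ˢ range (⌊X⌋₊ + 1) ×ˢ SPB X ×ˢ SPB X ×ˢ PB X).filter
    (fun x => Squarefree (x.2.2.1 * x.2.2.2.1) ∧
      (3 : ℝ) ^ x.2.1 * (N x.2.2.1 * (N x.2.2.2.1 : ℝ) ^ 2 * (N x.2.2.2.2 : ℝ) ^ 3) ≤ X)

theorem N_val {u : O} (hu : IsUnit u) (j : ℕ) (a b c : O) :
    (N (u * lam ^ j * (a * b ^ 2 * c ^ 3)) : ℝ) =
      (3 : ℝ) ^ j * (N a * (N b : ℝ) ^ 2 * (N c : ℝ) ^ 3) := by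
  have : N u = 1 := isUnit_iff_N.1 hu
  simp [this]

theorem mem_idx {X : ℝ} {x : Q5} : x ∈ idx X ↔
    IsDec (val x) x.1 x.2.1 x.2.2.1 x.2.2.2.1 x.2.2.2.2 ∧ (N (val x) : ℝ) ≤ X := by
  classical
  obtain ⟨u, j, a, b, c⟩ := x
  simp only [idx, mem_filter, mem_product, mem_SPB, mem_PB, mem_range, mem_U6, val]
  constructor
  · rintro ⟨⟨h1, h2, ⟨⟨h3, h4⟩, h5⟩, ⟨⟨h6, h7⟩, h8⟩, h9, h10⟩, h11, h12⟩
    refine ⟨⟨h1, h3, h6, h9, h11, rfl⟩, ?_⟩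
    rw [N_val h1]; exact h12
  · rintro ⟨⟨h1, h2, h3, h4, h5, -⟩, h6⟩
    rw [N_val h1] at h6
    have pa : (1 : ℝ) ≤ N a := by exact_mod_cast N_pos h2.ne_zero
    have pb : (1 : ℝ) ≤ N b := by exact_mod_cast N_pos h3.ne_zero
    have pc : (1 : ℝ) ≤ N c := by exact_mod_cast N_pos h4.ne_zero
    have pj : (1 : ℝ) ≤ (3 : ℝ) ^ j := one_le_pow₀ (by norm_num)
    have pb2 : (1 : ℝ) ≤ (N b : ℝ) ^ 2 := one_le_pow₀ pb
    have pc3 : (1 : ℝ) ≤ (N c : ℝ) ^ 3 := one_le_pow₀ pc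
    have pb2' : (N b : ℝ) ≤ (N b : ℝ) ^ 2 := le_self_pow₀ pb (by norm_num)
    have pc3' : (N c : ℝ) ≤ (N c : ℝ) ^ 3 := le_self_pow₀ pc (by norm_num)
    have e1 : (3 : ℝ) ^ j * (1 * 1 * 1) ≤
        (3 : ℝ) ^ j * (N a * (N b : ℝ) ^ 2 * (N c : ℝ) ^ 3) := by gcongr
    have e2 : 1 * ((N a : ℝ) * 1 * 1) ≤
        (3 : ℝ) ^ j * (N a * (N b : ℝ) ^ 2 * (N c : ℝ) ^ 3) := by gcongr
    have e3 : 1 * (1 * (N b : ℝ) * 1) ≤
        (3 : ℝ) ^ j * (N a * (N b : ℝ) ^ 2 * (N c : ℝ) ^ 3) := by gcongr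
    have e4 : 1 * (1 * 1 * (N c : ℝ)) ≤
        (3 : ℝ) ^ j * (N a * (N b : ℝ) ^ 2 * (N c : ℝ) ^ 3) := by gcongr
    refine ⟨⟨h1, ?_, ⟨⟨h2, by linarith⟩, h5.squarefree_of_dvd (dvd_mul_right a b)⟩,
      ⟨⟨h3, by linarith⟩, h5.squarefree_of_dvd (dvd_mul_left b a)⟩, h4, by linarith⟩, h5, h6⟩
    have h7 : ((3 ^ j : ℕ) : ℝ) ≤ X := by push_cast; linarith
    have h8 : 3 ^ j ≤ ⌊X⌋₊ := Nat.le_floor h7
    have h9 : j < 3 ^ j := Nat.lt_pow_self (by norm_num)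
    omega

theorem val_dec {k : O} (hk : k ≠ 0) : val (dec k) = k := (dec_eq hk).symm

theorem IsDec.dec_val {k u a b c : O} {j : ℕ} (h : IsDec k u j a b c) :
    dec k = (u, j, a, b, c) := by
  obtain ⟨h1, h2, h3, h4, h5⟩ := h.dec_eq
  rw [← h1, ← h2, ← h3, ← h4, ← h5]; rfl

theorem dec_mem_idx {k : O} (hk : k ≠ 0) {X : ℝ} (h : (N k : ℝ) ≤ X) : dec k ∈ idx X := by
  rw [mem_idx, val_dec hk]
  exact ⟨isDec hk, h⟩

theorem val_mem {X : ℝ} {x : Q5} (h : x ∈ idx X) : val x ∈ HB.Hn X := by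
  rw [mem_idx] at h
  rw [HB.mem_Hn]
  exact ⟨h.2, h.1.ne_zero⟩

/-- bijection form of a sum over all nonzero `k` of norm `≤ X` -/
theorem sum_Hn {M : Type*} [AddCommMonoid M] (X : ℝ) (f : O → M) :
    ∑ k ∈ HB.Hn X, f k = ∑ x ∈ idx X, f (val x) := by
  refine sum_bij' (fun k _ => dec k) (fun x _ => val x) ?_ ?_ ?_ ?_ ?_
  · intro k hk
    rw [HB.mem_Hn] at hk
    exact dec_mem_idx hk.2 hk.1
  · intro x hx; exact val_mem hx
  · intro k hk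
    rw [HB.mem_Hn] at hk
    exact val_dec hk.2
  · intro x hx
    rw [mem_idx] at hx
    exact hx.1.dec_val
  · intro k hk
    rw [HB.mem_Hn] at hk
    rw [val_dec hk.2]

open Classical in
/-- iterated form of a sum over all nonzero `k` of norm `≤ X` -/
theorem sum_Hn_iter {M : Type*} [AddCommMonoid M] (X : ℝ) (f : O → M) :
    ∑ k ∈ HB.Hn X, f k = ∑ u ∈ U6, ∑ j ∈ range (⌊X⌋₊ + 1), ∑ a ∈ SPB X, ∑ b ∈ SPB X,
      ∑ c ∈ PB X, if Squarefree (a * b) ∧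
        (3 : ℝ) ^ j * (N a * (N b : ℝ) ^ 2 * (N c : ℝ) ^ 3) ≤ X
        then f (u * lam ^ j * (a * b ^ 2 * c ^ 3)) else 0 := by
  rw [sum_Hn, idx, sum_filter]
  simp only [sum_product, val]

open Classical in
/-- sums over `k` with a condition on the conductor -/
theorem sum_Hn_cond {M : Type*} [AddCommMonoid M] (X : ℝ) (P : ℕ → Prop) (f : O → M) :
    ∑ k ∈ (HB.Hn X).filter (fun k => P (cond k)), f k =
      ∑ u ∈ U6, ∑ j ∈ range (⌊X⌋₊ + 1), ∑ a ∈ SPB X, ∑ b ∈ SPB X,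
      ∑ c ∈ PB X, if (Squarefree (a * b) ∧
        (3 : ℝ) ^ j * (N a * (N b : ℝ) ^ 2 * (N c : ℝ) ^ 3) ≤ X) ∧ P (N a * N b)
        then f (u * lam ^ j * (a * b ^ 2 * c ^ 3)) else 0 := by
  rw [sum_filter, sum_Hn_iter]
  refine sum_congr rfl fun u hu => sum_congr rfl fun j _ => sum_congr rfl fun a ha =>
    sum_congr rfl fun b hb => sum_congr rfl fun c hc => ?_
  rw [mem_U6] at hu
  rw [mem_SPB] at ha hb
  rw [mem_PB] at hc
  by_cases h : Squarefree (a * b) ∧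
        (3 : ℝ) ^ j * (N a * (N b : ℝ) ^ 2 * (N c : ℝ) ^ 3) ≤ X
  · have hd : IsDec (u * lam ^ j * (a * b ^ 2 * c ^ 3)) u j a b c :=
      ⟨hu, ha.1.1, hb.1.1, hc.1, h.1, rfl⟩
    rw [if_pos h, hd.cond_eq]
    simp only [h, true_and, and_self]
  · simp only [h, false_and, if_false]

end Vale.Agent.P006.DEC
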