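import Vale.Agent.P006.DEC.Exists
import Vale.Agent.P006.CR.Reciprocity

/-!
# P006: uniqueness of the decomposition `k = u λ^j k₁ k₂² k₃³`
-/

namespace Vale.Agent.P006.DEC

open Finset

/-- a nonzero element of `O` has finite multiplicity at a prime -/
theorem finmul {p x : O} (hp : Prime p) (hx : x ≠ 0) : FiniteMultiplicity p x :=
  FiniteMultiplicity.of_prime_left hp hx

theorem mult_mul {p x y : O} (hp : Prime p) (hx : x ≠ 0) (hy : y ≠ 0) :
    multiplicity p (x * y) = multiplicity p x + multiplicity p y :=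
  multiplicity_mul hp (finmul hp (mul_ne_zero hx hy))

theorem mult_pow {p x : O} (hp : Prime p) (hx : x ≠ 0) (n : ℕ) :
    multiplicity p (x ^ n) = n * multiplicity p x :=
  (finmul hp hx).multiplicity_pow hp

theorem mult_eq_zero {p x : O} (h : ¬ p ∣ x) : multiplicity p x = 0 :=
  multiplicity_eq_zero.2 h

theorem mult_unit {p u : O} (hp : Prime p) (hu : IsUnit u) : multiplicity p u = 0 :=
  mult_eq_zero fun h => hp.not_isUnit (isUnit_of_dvd_unit h hu)

theorem mult_squarefree {p x : O} (hp : Prime p) (hx : Squarefree x) : multiplicity p x ≤ 1 := by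
  by_contra h
  push Not at h
  have h2 : p ^ 2 ∣ x := pow_dvd_of_le_multiplicity h
  exact hp.not_isUnit (hx p (by rw [← sq]; exact h2))

/-- equality of multiplicities gives divisibility -/
theorem dvd_of_mult {a b : O} (ha : a ≠ 0) (hb : b ≠ 0)
    (h : ∀ p, Prime p → multiplicity p a ≤ multiplicity p b) : a ∣ b := by
  rw [UniqueFactorizationMonoid.dvd_iff_emultiplicity_le ha]
  intro p hp
  rw [(finmul hp ha).emultiplicity_eq_multiplicity, (finmul hp hb).emultiplicity_eq_multiplicity]
  exact_mod_cast h p hp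

theorem Primary.eq_of_mult {a b : O} (ha : Primary a) (hb : Primary b)
    (h : ∀ p, Prime p → multiplicity p a = multiplicity p b) : a = b :=
  Vale.Agent.P006.Primary.eq_of_associated ha hb (associated_of_dvd_dvd
    (dvd_of_mult ha.ne_zero hb.ne_zero fun p hp => (h p hp).le)
    (dvd_of_mult hb.ne_zero ha.ne_zero fun p hp => (h p hp).ge))

/-- the decomposition of a primary element is unique -/
theorem unique_primary {a b c a' b' c' : O} (ha : Primary a) (hb : Primary b) (hc : Primary c)
    (hab : Squarefree (a * b)) (ha' : Primary a') (hb' : Primary b') (hc' : Primary c')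
    (hab' : Squarefree (a' * b')) (h : a * b ^ 2 * c ^ 3 = a' * b' ^ 2 * c' ^ 3) :
    a = a' ∧ b = b' ∧ c = c' := by
  have key : ∀ p, Prime p → multiplicity p a = multiplicity p a' ∧
      multiplicity p b = multiplicity p b' ∧ multiplicity p c = multiplicity p c' := by
    intro p hp
    have h1 := mult_squarefree hp hab
    have h1' := mult_squarefree hp hab'
    rw [mult_mul hp ha.ne_zero hb.ne_zero] at h1
    rw [mult_mul hp ha'.ne_zero hb'.ne_zero] at h1'
    have h2 := congrArg (multiplicity p) h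
    rw [mult_mul hp (mul_ne_zero ha.ne_zero (pow_ne_zero _ hb.ne_zero))
        (pow_ne_zero _ hc.ne_zero), mult_mul hp ha.ne_zero (pow_ne_zero _ hb.ne_zero),
      mult_pow hp hb.ne_zero, mult_pow hp hc.ne_zero,
      mult_mul hp (mul_ne_zero ha'.ne_zero (pow_ne_zero _ hb'.ne_zero))
        (pow_ne_zero _ hc'.ne_zero), mult_mul hp ha'.ne_zero (pow_ne_zero _ hb'.ne_zero),
      mult_pow hp hb'.ne_zero, mult_pow hp hc'.ne_zero] at h2
    omega
  exact ⟨Primary.eq_of_mult ha ha' fun p hp => (key p hp).1,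
    Primary.eq_of_mult hb hb' fun p hp => (key p hp).2.1,
    Primary.eq_of_mult hc hc' fun p hp => (key p hp).2.2⟩

/-- the `λ`-part and the unit are unique -/
theorem unique_lam {u u' x x' : O} {j j' : ℕ} (hu : IsUnit u) (hu' : IsUnit u')
    (hx : Primary x) (hx' : Primary x') (h : u * lam ^ j * x = u' * lam ^ j' * x') :
    u = u' ∧ j = j' ∧ x = x' := by
  have hl := prime_lam
  have h0 : lam ≠ 0 := hl.ne_zero
  have hj : j = j' := by
    have h2 := congrArg (multiplicity lam) h
    have e1 : multiplicity lam lam = 1 := multiplicity_self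
    rw [mult_mul hl (mul_ne_zero hu.ne_zero (pow_ne_zero _ h0)) hx.ne_zero,
      mult_mul hl hu.ne_zero (pow_ne_zero _ h0), mult_pow hl h0, mult_unit hl hu,
      mult_eq_zero hx.not_lam_dvd,
      mult_mul hl (mul_ne_zero hu'.ne_zero (pow_ne_zero _ h0)) hx'.ne_zero,
      mult_mul hl hu'.ne_zero (pow_ne_zero _ h0), mult_pow hl h0, mult_unit hl hu',
      mult_eq_zero hx'.not_lam_dvd, e1] at h2
    omega
  subst hj
  have h3 : u * x = u' * x' := by
    apply mul_left_cancel₀ (pow_ne_zero j h0)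
    linear_combination h
  have h4 : x = x' := by
    apply Vale.Agent.P006.Primary.eq_of_associated hx hx'
    obtain ⟨v, rfl⟩ := hu
    obtain ⟨v', rfl⟩ := hu'
    refine ⟨v'⁻¹ * v, ?_⟩
    rw [Units.val_mul]
    have h5 : (v' : O) * ↑v'⁻¹ = 1 := v'.mul_inv
    have h6 : x * (↑v'⁻¹ * ↑v) = ↑v'⁻¹ * (↑v * x) := by ring
    rw [h6, h3]
    linear_combination x' * h5
  subst h4
  exact ⟨mul_right_cancel₀ hx.ne_zero h3, rfl, rfl⟩

/-- the decomposition is unique -/
theorem unique_dec {u u' a b c a' b' c' : O} {j j' : ℕ} (hu : IsUnit u) (hu' : IsUnit u')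
    (ha : Primary a) (hb : Primary b) (hc : Primary c) (hab : Squarefree (a * b))
    (ha' : Primary a') (hb' : Primary b') (hc' : Primary c') (hab' : Squarefree (a' * b'))
    (h : u * lam ^ j * (a * b ^ 2 * c ^ 3) = u' * lam ^ j' * (a' * b' ^ 2 * c' ^ 3)) :
    u = u' ∧ j = j' ∧ a = a' ∧ b = b' ∧ c = c' := by
  obtain ⟨h1, h2, h3⟩ := unique_lam hu hu' ((ha.mul (hb.pow 2)).mul (hc.pow 3))
    ((ha'.mul (hb'.pow 2)).mul (hc'.pow 3)) h
  obtain ⟨h4, h5, h6⟩ := unique_primary ha hb hc hab ha' hb' hc' hab' h3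
  exact ⟨h1, h2, h4, h5, h6⟩

end Vale.Agent.P006.DEC
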